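import Crest.Agent.R176.Gen.Mon206

-- ▼ part R176/Gen/Alg206
section

/-!
R176 part A, block G2 (helper206): the algebra `A st k`.

* `A.lift` universal property, `A.algHom_ext`, `A.span_w`, `A.induction_on`;
* `A.ofS : S st →*₀ A st k`, `A.basis` : basis of the nonzero elements of `S st`;
* `A.w_eq_zero_iff`, `A.w_eq_iff`;
* grading `A.deg` (`GradedAlgebra`), `A.deg_zero`, augmentation `A.aug`;
* `A.mapCoeff` change of coefficients; `A.mapS` linear map of a pointed map `S st → S st'`.
-/

set_option autoImplicit false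

namespace Crest.Agent.R176.Gen

open FreeAlgebra
open scoped DirectSum

variable {L : Type} (st : L → L → Option (L × L)) (k : Type) [CommRing k]

theorem A.mk_surjective : Function.Surjective (A.mk st k) :=
  RingQuot.mkAlgHom_surjective k (ARel st k)

@[simp] theorem A.w_nil : A.w st k [] = 1 := rfl
@[simp] theorem A.w_cons (a : L) (w : List L) :
    A.w st k (a :: w) = (A.model st k).f a * A.w st k w := Model.ev_cons _ a w
theorem A.w_append (u v : List L) : A.w st k (u ++ v) = A.w st k u * A.w st k v :=
  Model.ev_append _ u v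
theorem A.w_singleton (a : L) : A.w st k [a] = (A.model st k).f a := by simp

variable {st k}

/-- Universal property of the algebra. -/
def A.lift {B : Type*} [Semiring B] [Algebra k B] (m : Model st B) : A st k →ₐ[k] B :=
  RingQuot.liftAlgHom k ⟨FreeAlgebra.lift k m.f, by
    intro u v h
    cases h with
    | some x y p h => simp [m.rel_some h]
    | none x y h => simp [m.rel_none h]⟩

theorem A.lift_mk {B : Type*} [Semiring B] [Algebra k B] (m : Model st B) (f : FreeAlgebra k L) :
    A.lift m (A.mk st k f) = FreeAlgebra.lift k m.f f := by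
  unfold A.lift A.mk
  exact RingQuot.liftAlgHom_mkAlgHom_apply k _ _ _

@[simp] theorem A.lift_f {B : Type*} [Semiring B] [Algebra k B] (m : Model st B) (a : L) :
    A.lift m ((A.model st k).f a) = m.f a := by
  show A.lift m (A.mk st k (ι k a)) = _
  rw [A.lift_mk]; simp

@[simp] theorem A.lift_w {B : Type*} [Semiring B] [Algebra k B] (m : Model st B) (w : List L) :
    A.lift m (A.w st k w) = m.ev w := by
  induction w with
  | nil => simp
  | cons a w ih => rw [A.w_cons, map_mul, ih, A.lift_f, Model.ev_cons]

theorem A.algHom_ext {B : Type*} [Semiring B] [Algebra k B] {f g : A st k →ₐ[k] B}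
    (h : ∀ a, f ((A.model st k).f a) = g ((A.model st k).f a)) : f = g := by
  refine RingQuot.ringQuot_ext' k _ _ ?_
  refine FreeAlgebra.hom_ext ?_
  funext a
  exact h a

variable (st k)

/-- Words span. -/
theorem A.span_w : Submodule.span k (Set.range (A.w st k)) = ⊤ := by
  rw [eq_top_iff]
  rintro r -
  obtain ⟨f, rfl⟩ := A.mk_surjective st k r
  induction f using FreeAlgebra.induction with
  | grade0 c =>
    rw [AlgHom.commutes, Algebra.algebraMap_eq_smul_one]
    exact Submodule.smul_mem _ _ (Submodule.subset_span ⟨[], rfl⟩)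
  | grade1 a => exact Submodule.subset_span ⟨[a], by rw [A.w_singleton]; rfl⟩
  | mul f g hf hg =>
    rw [map_mul]
    have := Submodule.mul_mem_mul hf hg
    rw [Submodule.span_mul_span] at this
    refine Submodule.span_mono ?_ this
    rintro _ ⟨_, ⟨p, rfl⟩, _, ⟨q, rfl⟩, rfl⟩
    exact ⟨p ++ q, by simp [A.w_append]⟩
  | add f g hf hg => rw [map_add]; exact Submodule.add_mem _ hf hg

variable {st k} in
theorem A.induction_on {P : A st k → Prop} (r : A st k)
    (hw : ∀ w, P (A.w st k w)) (hadd : ∀ r s, P r → P s → P (r + s))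
    (hsmul : ∀ (c : k) r, P r → P (c • r)) : P r := by
  have hr : r ∈ Submodule.span k (Set.range (A.w st k)) := by
    rw [A.span_w]; trivial
  induction hr using Submodule.span_induction with
  | mem r hr => obtain ⟨w, rfl⟩ := hr; exact hw w
  | zero => simpa using hsmul 0 _ (hw [])
  | add r s _ _ hr hs => exact hadd r s hr hs
  | smul c r _ hr => exact hsmul c r hr

/-! ### the basis -/

/-- elements of `S` in the algebra -/
def A.ofS : S st →*₀ A st k := S.lift (A.model st k)

@[simp] theorem A.ofS_of (w : List L) : A.ofS st k (S.of st w) = A.w st k w :=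
  S.lift_of _ w

/-- Nonzero elements of `S`. -/
abbrev NZ : Type := {s : S st // s ≠ 0}

open Classical in
/-- `single s` with `0` killed -/
noncomputable def sg (s : S st) : NZ st →₀ k :=
  if h : s = 0 then 0 else Finsupp.single ⟨s, h⟩ 1

@[simp] theorem sg_zero : sg st k 0 = 0 := by simp [sg]
theorem sg_of_ne {s : S st} (h : s ≠ 0) : sg st k s = Finsupp.single ⟨s, h⟩ 1 := by
  simp [sg, h]

theorem fin_ext {N : Type*} [AddCommGroup N] [Module k N] {f g : (NZ st →₀ k) →ₗ[k] N}
    (h : ∀ s : S st, f (sg st k s) = g (sg st k s)) : f = g := by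
  refine Finsupp.lhom_ext' fun q => LinearMap.ext_ring ?_
  obtain ⟨s, hs⟩ := q
  have e : Finsupp.lsingle (R := k) (⟨s, hs⟩ : NZ st) (1 : k) = sg st k s := by
    rw [sg_of_ne st k hs]; rfl
  rw [LinearMap.comp_apply, LinearMap.comp_apply, e]
  exact h s

/-- linear extension of a pointed map out of `S` -/
noncomputable def ext {N : Type*} [AddCommGroup N] [Module k N] (φ : S st → N) :
    (NZ st →₀ k) →ₗ[k] N :=
  Finsupp.linearCombination k fun q : NZ st => φ q.1

theorem ext_sg {N : Type*} [AddCommGroup N] [Module k N] (φ : S st → N) (h0 : φ 0 = 0)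
    (s : S st) : ext st k φ (sg st k s) = φ s := by
  by_cases h : s = 0
  · subst h; simp [h0]
  · rw [sg_of_ne st k h]
    unfold ext
    rw [Finsupp.linearCombination_single, one_smul]

/-- The action of `S` on the free module on its nonzero elements. -/
noncomputable def act (s : S st) : Module.End k (NZ st →₀ k) :=
  ext st k fun t => sg st k (s * t)

theorem act_sg (s t : S st) : act st k s (sg st k t) = sg st k (s * t) :=
  ext_sg st k (fun t => sg st k (s * t)) (by simp) t

/-- the regular model -/
noncomputable def regModel : Model st (Module.End k (NZ st →₀ k)) where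
  f a := act st k (S.of st [a])
  rel x y := by
    cases h : st x y with
    | none =>
      refine fin_ext st k fun s => ?_
      rw [Module.End.mul_apply, act_sg, act_sg, LinearMap.zero_apply, ← mul_assoc,
        ← S.of_append, show [x] ++ [y] = [x, y] from rfl, S.rel_none st h, zero_mul, sg_zero]
    | some p =>
      refine fin_ext st k fun s => ?_
      dsimp only
      rw [Module.End.mul_apply, Module.End.mul_apply, act_sg, act_sg, act_sg, act_sg,
        ← mul_assoc, ← mul_assoc, ← S.of_append, ← S.of_append,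
        show [x] ++ [y] = [x, y] from rfl, show [p.1] ++ [p.2] = [p.1, p.2] from rfl,
        S.rel_some st h]

theorem regModel_ev (w : List L) (s : S st) :
    (regModel st k).ev w (sg st k s) = sg st k (S.of st w * s) := by
  induction w with
  | nil => rw [Model.ev_nil, S.of_nil, one_mul]; rfl
  | cons a w ih =>
    rw [Model.ev_cons, Module.End.mul_apply, ih, S.of_cons, mul_assoc]
    exact act_sg st k _ _

/-- coordinates in the basis of nonzero elements of `S` -/
noncomputable def A.coord : A st k →ₗ[k] (NZ st →₀ k) :=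
  (LinearMap.applyₗ (sg st k 1)).comp (A.lift (regModel st k)).toLinearMap

@[simp] theorem A.coord_w (w : List L) :
    A.coord st k (A.w st k w) = sg st k (S.of st w) := by
  simp [A.coord, regModel_ev]

@[simp] theorem A.coord_ofS (s : S st) :
    A.coord st k (A.ofS st k s) = sg st k s := by
  rcases S.cases st s with rfl | ⟨w, rfl⟩
  · simp
  · simp





theorem A.ofS_ne_zero [Nontrivial k] {s : S st} (h : s ≠ 0) : A.ofS st k s ≠ 0 := by
  intro e
  have := A.coord_ofS st k s
  rw [e, map_zero, sg_of_ne st k h] at this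
  exact one_ne_zero (Finsupp.single_eq_zero.1 this.symm)

theorem A.ofS_injective [Nontrivial k] : Function.Injective (A.ofS st k) := by
  intro s t e
  by_cases hs : s = 0
  · subst hs
    rw [map_zero] at e
    by_contra ht
    exact A.ofS_ne_zero st k (s := t) (fun h => ht h.symm) e.symm
  · by_cases ht : t = 0
    · subst ht
      rw [map_zero] at e
      exact absurd e (A.ofS_ne_zero st k hs)
    · have := congrArg (A.coord st k) e
      rw [A.coord_ofS, A.coord_ofS, sg_of_ne st k hs, sg_of_ne st k ht,
        Finsupp.single_left_inj one_ne_zero] at this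
      exact congrArg Subtype.val this

theorem A.w_eq_iff [Nontrivial k] {u v : List L} :
    A.w st k u = A.w st k v ↔ S.of st u = S.of st v := by
  rw [← A.ofS_of, ← A.ofS_of, (A.ofS_injective st k).eq_iff]







/-! ### Grading -/

theorem A.w_mem_deg {w : List L} {n : ℕ} (h : w.length = n) : A.w st k w ∈ A.deg st k n :=
  Submodule.subset_span ⟨w, h, rfl⟩

theorem A.f_mem_deg (a : L) : (A.model st k).f a ∈ A.deg st k 1 := by
  have := A.w_mem_deg st k (w := [a]) (n := 1) rfl
  simpa using this

instance A.gradedMonoid : SetLike.GradedMonoid (A.deg st k) where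
  one_mem := A.w_mem_deg st k (w := []) (n := 0) rfl
  mul_mem := by
    intro i j u v hu hv
    have := Submodule.mul_mem_mul hu hv
    unfold A.deg at this
    rw [Submodule.span_mul_span] at this
    refine Submodule.span_mono ?_ this
    rintro _ ⟨_, ⟨p, hp, rfl⟩, _, ⟨q, hq, rfl⟩, rfl⟩
    exact ⟨p ++ q, by simp [hp, hq], (A.w_append st k p q).symm⟩

/-- the model in the direct sum of the degrees -/
def A.decModel : Model st (⨁ n, A.deg st k n) where
  f a := DirectSum.of (fun n => A.deg st k n) 1 ⟨(A.model st k).f a, A.f_mem_deg st k a⟩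
  rel x y := by
    cases h : st x y with
    | none =>
      rw [DirectSum.of_mul_of]
      have : (GradedMonoid.GMul.mul (A := fun n => A.deg st k n)
          (⟨(A.model st k).f x, A.f_mem_deg st k x⟩ : A.deg st k 1)
          (⟨(A.model st k).f y, A.f_mem_deg st k y⟩ : A.deg st k 1)) = 0 :=
        Subtype.ext ((A.model st k).rel_none h)
      rw [this, map_zero]
    | some p =>
      dsimp only
      rw [DirectSum.of_mul_of, DirectSum.of_mul_of]
      exact congrArg _ (Subtype.ext ((A.model st k).rel_some h))

theorem A.dec_w (w : List L) :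
    A.lift (A.decModel st k) (A.w st k w) =
      DirectSum.of (fun n => A.deg st k n) w.length ⟨A.w st k w, A.w_mem_deg st k rfl⟩ := by
  induction w with
  | nil =>
    have e : A.lift (A.decModel st k) (A.w st k []) = 1 := by rw [A.w_nil, map_one]
    rw [e]; rfl
  | cons a w ih =>
    have e : A.lift (A.decModel st k) (A.w st k (a :: w)) =
        A.lift (A.decModel st k) ((A.model st k).f a) *
          A.lift (A.decModel st k) (A.w st k w) := by rw [A.w_cons, map_mul]
    rw [e, ih, A.lift_f]
    unfold A.decModel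
    dsimp only
    rw [DirectSum.of_mul_of]
    exact DirectSum.of_eq_of_gradedMonoid_eq
      (Sigma.subtype_ext (add_comm _ _) (A.w_cons st k a w).symm)

noncomputable instance A.gradedAlgebra : GradedAlgebra (A.deg st k) :=
  GradedAlgebra.ofAlgHom _ (A.lift (A.decModel st k))
    (by
      refine A.algHom_ext fun a => ?_
      rw [AlgHom.comp_apply, A.lift_f]
      unfold A.decModel
      rw [DirectSum.coeAlgHom_of, AlgHom.id_apply])
    (by
      rintro i ⟨r, hr⟩
      dsimp only
      induction hr using Submodule.span_induction with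
      | mem r h =>
        obtain ⟨w, hw, rfl⟩ := h
        subst hw
        exact A.dec_w st k w
      | zero => rw [map_zero]; exact (map_zero _).symm
      | add r s hr hs h1 h2 => rw [map_add, h1, h2, ← map_add]; rfl
      | smul c r hr h1 =>
        rw [map_smul, h1]
        rw [← DirectSum.lof_eq_of k, ← DirectSum.lof_eq_of k, ← map_smul]; rfl)

theorem A.deg_zero : A.deg st k 0 = 1 := by
  rw [Submodule.one_eq_span]
  unfold A.deg
  congr 1
  ext r
  constructor
  · rintro ⟨w, hw, rfl⟩
    rw [List.length_eq_zero_iff] at hw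
    subst hw; simp
  · rintro rfl
    exact ⟨[], rfl, rfl⟩

theorem A.proj_w (n : ℕ) (w : List L) :
    GradedRing.proj (A.deg st k) n (A.w st k w) = if w.length = n then A.w st k w else 0 := by
  split_ifs with h
  · exact DirectSum.decompose_of_mem_same _ (A.w_mem_deg st k h)
  · exact DirectSum.decompose_of_mem_ne _ (A.w_mem_deg st k rfl) h

/-- the zero model -/
def zeroModel : Model st k where
  f _ := 0
  rel x y := by cases h : st x y <;> simp

/-- The augmentation. -/
def A.aug : A st k →ₐ[k] k := A.lift (zeroModel st k)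

@[simp] theorem A.aug_f (a : L) : A.aug st k ((A.model st k).f a) = 0 := by
  unfold A.aug; rw [A.lift_f]; rfl

theorem A.aug_w (w : List L) : A.aug st k (A.w st k w) = if w = [] then 1 else 0 := by
  cases w with
  | nil => simp
  | cons a w => simp

theorem A.proj_zero_eq (r : A st k) :
    GradedRing.proj (A.deg st k) 0 r = algebraMap k _ (A.aug st k r) := by
  induction r using A.induction_on with
  | hw w =>
    rw [A.proj_w, A.aug_w]
    cases w with
    | nil => simp
    | cons a w => simp
  | hadd r s hr hs => rw [map_add, map_add, map_add, hr, hs]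
  | hsmul c r hr =>
    have e : GradedRing.proj (A.deg st k) 0 (c • r) = c • GradedRing.proj (A.deg st k) 0 r := by
      rw [GradedRing.proj_apply, GradedRing.proj_apply, DirectSum.decompose_smul,
        DirectSum.smul_apply]
      rfl
    rw [e, hr, map_smul, smul_eq_mul, map_mul, ← Algebra.smul_def]

/-- Elements of augmentation zero are spanned by nonempty words. -/
theorem A.mem_span_of_aug {r : A st k} (h : A.aug st k r = 0) :
    r ∈ Submodule.span k {r | ∃ w : List L, w ≠ [] ∧ A.w st k w = r} := by
  have key : ∀ r : A st k, r - algebraMap k _ (A.aug st k r) ∈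
      Submodule.span k {r | ∃ w : List L, w ≠ [] ∧ A.w st k w = r} := by
    intro r
    induction r using A.induction_on with
    | hw w =>
      rw [A.aug_w]
      split_ifs with hw
      · subst hw; simp
      · rw [map_zero, sub_zero]
        exact Submodule.subset_span ⟨w, hw, rfl⟩
    | hadd r s hr hs =>
      have e : r + s - algebraMap k _ (A.aug st k (r + s)) =
          (r - algebraMap k _ (A.aug st k r)) + (s - algebraMap k _ (A.aug st k s)) := by
        rw [map_add, map_add]; abel
      rw [e]; exact Submodule.add_mem _ hr hs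
    | hsmul c r hr =>
      have e : c • r - algebraMap k _ (A.aug st k (c • r)) =
          c • (r - algebraMap k _ (A.aug st k r)) := by
        rw [map_smul, smul_eq_mul, map_mul, smul_sub, Algebra.smul_def c (algebraMap k _ _)]
      rw [e]; exact Submodule.smul_mem _ _ hr
  have := key r
  rwa [h, map_zero, sub_zero] at this

theorem A.algebraMap_injective [Nontrivial k] : Function.Injective (algebraMap k (A st k)) := by
  intro a b h
  have := congrArg (A.aug st k) h
  simpa using this

instance A.nontrivial [Nontrivial k] : Nontrivial (A st k) :=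
  (A.algebraMap_injective st k).nontrivial

theorem A.proj_zero_iff [Nontrivial k] (r : A st k) :
    GradedRing.proj (A.deg st k) 0 r = 0 ↔ A.aug st k r = 0 := by
  rw [A.proj_zero_eq]
  refine ⟨fun h => A.algebraMap_injective st k (by rw [h, map_zero]),
    fun h => by rw [h, map_zero]⟩

/-! ### Change of coefficients -/

section coeff

variable {k} {k' : Type} [CommRing k'] (f : k →+* k')

/-- Change of coefficients. -/
def A.mapCoeff : A st k →+* A st k' :=
  letI : Algebra k (A st k') := Algebra.compHom _ f
  (A.lift (k := k) (A.model st k') : A st k →ₐ[k] A st k').toRingHom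

@[simp] theorem A.mapCoeff_f (a : L) :
    A.mapCoeff st f ((A.model st k).f a) = (A.model st k').f a := by
  let _ : Algebra k (A st k') := Algebra.compHom _ f
  exact A.lift_f (k := k) (A.model st k') a

@[simp] theorem A.mapCoeff_algebraMap (c : k) :
    A.mapCoeff st f (algebraMap k _ c) = algebraMap k' _ (f c) := by
  let _ : Algebra k (A st k') := Algebra.compHom _ f
  exact AlgHom.commutes (A.lift (k := k) (A.model st k') : A st k →ₐ[k] A st k') c

theorem A.mapCoeff_smul (c : k) (r : A st k) :
    A.mapCoeff st f (c • r) = f c • A.mapCoeff st f r := by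
  rw [Algebra.smul_def, map_mul, A.mapCoeff_algebraMap, ← Algebra.smul_def]

@[simp] theorem A.mapCoeff_w (w : List L) :
    A.mapCoeff st f (A.w st k w) = A.w st k' w := by
  induction w with
  | nil => simp
  | cons a w ih => rw [A.w_cons, map_mul, ih, A.mapCoeff_f, A.w_cons]

end coeff

end Crest.Agent.R176.Gen
end

-- ▼ part R176/Gen/Pres206
section

/-!
R176 part A, block G3 (helper206): infinitude, finite presentation in the shape of S0266 and the
reduction `S0266_of`.
-/

set_option autoImplicit false

namespace Crest.Agent.R176.Gen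

open FreeAlgebra

variable {L : Type} (st : L → L → Option (L × L)) (k : Type) [CommRing k]

theorem A.infinite_of_words [Nontrivial k]
    (h : ∀ n : ℕ, ∃ w : List L, n ≤ w.length ∧ S.of st w ≠ 0) : Infinite (A st k) := by
  have h' : ∀ n : ℕ, ∃ w : List L, w.length = n ∧ S.of st w ≠ 0 := by
    intro n
    obtain ⟨w, hn, hw⟩ := h n
    refine ⟨w.take n, by simp [hn], ?_⟩
    refine S.of_ne_zero_of_append (p := []) (s := w.drop n) ?_
    simpa using hw
  choose w hl hw using h'
  refine Infinite.of_injective (fun n => A.w st k (w n)) ?_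
  intro m n e
  have := S.length_eq ((A.w_eq_iff st k).1 e) (hw m)
  rw [hl, hl] at this
  exact this

section pres

variable {st k}
variable {m : ℕ} (e : L ≃ Fin m)

/-- right hand side of the relation for the pair `(i,j)` -/
noncomputable def rhs (st : L → L → Option (L × L)) (k : Type) [CommRing k] (e : L ≃ Fin m)
    (i j : Fin m) : FreeAlgebra k (Fin m) :=
  match st (e.symm i) (e.symm j) with
  | none => 0
  | some ab => ι k (e ab.1) * ι k (e ab.2)

open Classical in
/-- The finite set of relations. -/
noncomputable def rels (st : L → L → Option (L × L)) (k : Type) [CommRing k] (e : L ≃ Fin m) :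
    Finset (FreeAlgebra k (Fin m) × FreeAlgebra k (Fin m)) :=
  Finset.univ.image fun ij : Fin m × Fin m =>
    (ι k ij.1 * ι k ij.2, rhs st k e ij.1 ij.2)

theorem mem_rels {u v : FreeAlgebra k (Fin m)} :
    (u, v) ∈ rels st k e ↔ ∃ i j : Fin m, ι k i * ι k j = u ∧ rhs st k e i j = v := by
  simp only [rels, Finset.mem_image, Finset.mem_univ, true_and, Prod.exists, Prod.mk.injEq]

/-- model in the presented algebra -/
noncomputable def presModel :
    Model st (RingQuot fun u v : FreeAlgebra k (Fin m) => (u, v) ∈ rels st k e) where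
  f a := RingQuot.mkAlgHom k (fun u v => (u, v) ∈ rels st k e) (ι k (e a))
  rel a b := by
    cases h : st a b with
    | none =>
      rw [← map_mul, ← map_zero (RingQuot.mkAlgHom k (fun u v => (u, v) ∈ rels st k e))]
      refine RingQuot.mkAlgHom_rel k ((mem_rels e).2 ⟨e a, e b, rfl, ?_⟩)
      simp [rhs, h]
    | some p =>
      dsimp only
      rw [← map_mul, ← map_mul]
      refine RingQuot.mkAlgHom_rel k ((mem_rels e).2 ⟨e a, e b, rfl, ?_⟩)
      simp [rhs, h]

/-- The presentation. -/
noncomputable def A.presEquiv :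
    A st k ≃ₐ[k] RingQuot fun u v : FreeAlgebra k (Fin m) => (u, v) ∈ rels st k e :=
  AlgEquiv.ofAlgHom
    (A.lift (presModel e))
    (RingQuot.liftAlgHom k ⟨FreeAlgebra.lift k fun i => (A.model st k).f (e.symm i), by
      intro u v h
      obtain ⟨i, j, rfl, rfl⟩ := (mem_rels e).1 h
      rw [map_mul, lift_ι_apply, lift_ι_apply]
      unfold rhs
      cases hs : st (e.symm i) (e.symm j) with
      | none => simp only [map_zero]; exact (A.model st k).rel_none hs
      | some ab =>
        simp only [map_mul, lift_ι_apply, Equiv.symm_apply_apply]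
        exact (A.model st k).rel_some hs⟩)
    (by
      refine RingQuot.ringQuot_ext' k _ _ ?_
      refine FreeAlgebra.hom_ext ?_
      funext i
      simp only [Function.comp_apply, AlgHom.comp_apply, AlgHom.id_apply]
      rw [RingQuot.liftAlgHom_mkAlgHom_apply, lift_ι_apply, A.lift_f]
      simp [presModel])
    (by
      refine A.algHom_ext fun a => ?_
      simp only [AlgHom.comp_apply, AlgHom.id_apply]
      rw [A.lift_f]
      unfold presModel
      dsimp only
      rw [RingQuot.liftAlgHom_mkAlgHom_apply, lift_ι_apply, Equiv.symm_apply_apply])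

end pres

/-- S0266 from a finite rule table: unboundedly long nonzero words, and nilpotence of matrices
over the augmentation ideal. -/
theorem S0266_of {L : Type} [Fintype L] (st : L → L → Option (L × L))
    (hinf : ∀ n : ℕ, ∃ w : List L, n ≤ w.length ∧ S.of st w ≠ 0)
    (hnil : ∀ (l : ℕ) (B : Matrix (Fin l) (Fin l) (A st (ZMod 2))),
      (∀ i j, A.aug st (ZMod 2) (B i j) = 0) → IsNilpotent B) :
    ∃ (R : Type) (_ : Ring R) (_ : Algebra (ZMod 2) R) (𝒜 : ℕ → Submodule (ZMod 2) R)
      (_ : GradedAlgebra 𝒜),
      Infinite R ∧ 𝒜 0 = 1 ∧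
      (∃ (m : ℕ) (rel : Finset (FreeAlgebra (ZMod 2) (Fin m) × FreeAlgebra (ZMod 2) (Fin m))),
        Nonempty (R ≃ₐ[ZMod 2] RingQuot fun x y : FreeAlgebra (ZMod 2) (Fin m) => (x, y) ∈ rel)) ∧
      ∀ (l : ℕ) (A : Matrix (Fin l) (Fin l) R), (∀ i j, GradedRing.proj 𝒜 0 (A i j) = 0) →
        IsNilpotent A := by
  refine ⟨A st (ZMod 2), inferInstance, inferInstance, A.deg st (ZMod 2), inferInstance,
    A.infinite_of_words st (ZMod 2) hinf, A.deg_zero st (ZMod 2),
    ⟨Fintype.card L, rels st (ZMod 2) (Fintype.equivFin L),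
      ⟨A.presEquiv (Fintype.equivFin L)⟩⟩, ?_⟩
  intro l B hB
  exact hnil l B fun i j => (A.proj_zero_iff st (ZMod 2) _).1 (hB i j)

end Crest.Agent.R176.Gen
end

-- ▼ part R176/Gen/Lin206

/-!
R176 part A, block Q5 (helper206): linearisation.  If `1 - B` is a unit for all square matrices `B`
over `A_1 + A_2`, for all coefficient rings of characteristic two, then every square matrix over
the augmentation ideal of `A st (ZMod 2)` is nilpotent.
-/

set_option autoImplicit false

namespace Crest.Agent.R176.Gen

open Polynomial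

section block

variable {R : Type*} [Ring R] {m n : Type*} [Fintype m] [Fintype n] [DecidableEq m] [DecidableEq n]

theorem isUnit_of_fromBlocks_one {M : Matrix m m R}
    (h : IsUnit (Matrix.fromBlocks M 0 0 (1 : Matrix n n R))) : IsUnit M := by
  obtain ⟨u, hu⟩ := h
  have h1 := u.mul_inv
  have h2 := u.inv_mul
  rw [hu, ← Matrix.fromBlocks_toBlocks (↑u⁻¹ : Matrix (m ⊕ n) (m ⊕ n) R),
    Matrix.fromBlocks_multiply, ← Matrix.fromBlocks_one, Matrix.fromBlocks_inj] at h1
  rw [hu, ← Matrix.fromBlocks_toBlocks (↑u⁻¹ : Matrix (m ⊕ n) (m ⊕ n) R),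
    Matrix.fromBlocks_multiply, ← Matrix.fromBlocks_one, Matrix.fromBlocks_inj] at h2
  obtain ⟨h1, -⟩ := h1
  obtain ⟨h2, -⟩ := h2
  simp only [Matrix.zero_mul, add_zero, Matrix.mul_zero] at h1 h2
  exact ⟨⟨M, _, h1, h2⟩, rfl⟩

theorem isUnit_fromBlocks_upper (U : Matrix m n R) :
    IsUnit (Matrix.fromBlocks (1 : Matrix m m R) U 0 (1 : Matrix n n R)) := by
  refine ⟨⟨Matrix.fromBlocks 1 U 0 1, Matrix.fromBlocks 1 (-U) 0 1, ?_, ?_⟩, rfl⟩ <;>
  · rw [Matrix.fromBlocks_multiply, ← Matrix.fromBlocks_one, Matrix.fromBlocks_inj]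
    simp

theorem isUnit_fromBlocks_lower (V : Matrix n m R) :
    IsUnit (Matrix.fromBlocks (1 : Matrix m m R) 0 V (1 : Matrix n n R)) := by
  refine ⟨⟨Matrix.fromBlocks 1 0 V 1, Matrix.fromBlocks 1 0 (-V) 1, ?_, ?_⟩, rfl⟩ <;>
  · rw [Matrix.fromBlocks_multiply, ← Matrix.fromBlocks_one, Matrix.fromBlocks_inj]
    simp

/-- Schur complement. -/
theorem isUnit_of_schur {P : Matrix m m R} {U : Matrix m n R} {V : Matrix n m R}
    (h : IsUnit (1 - Matrix.fromBlocks P U V 0)) : IsUnit (1 - (P + U * V)) := by
  have e : (1 : Matrix (m ⊕ n) (m ⊕ n) R) - Matrix.fromBlocks P U V 0 =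
      Matrix.fromBlocks 1 (-U) 0 1 * Matrix.fromBlocks (1 - (P + U * V)) 0 0 1 *
        Matrix.fromBlocks 1 0 (-V) 1 := by
    rw [Matrix.fromBlocks_multiply, Matrix.fromBlocks_multiply, ← Matrix.fromBlocks_one,
      sub_eq_add_neg, Matrix.fromBlocks_neg, Matrix.fromBlocks_add, Matrix.fromBlocks_inj]
    simp only [Matrix.one_mul, Matrix.zero_mul, Matrix.mul_zero, Matrix.mul_one, add_zero,
      zero_add, neg_zero, and_true, Matrix.neg_mul, Matrix.mul_neg, neg_neg, and_self]
    abel
  rw [e] at h
  have h1 := (isUnit_fromBlocks_lower (m := m) (n := n) (R := R) (-V))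
  have h2 := (isUnit_fromBlocks_upper (m := m) (n := n) (R := R) (-U))
  have h3 : IsUnit (Matrix.fromBlocks (1 - (P + U * V)) 0 0 (1 : Matrix n n R)) := by
    have := (h2.unit⁻¹.isUnit.mul h).mul h1.unit⁻¹.isUnit
    have e2 : (↑h2.unit⁻¹ : Matrix (m ⊕ n) (m ⊕ n) R) * (Matrix.fromBlocks 1 (-U) 0 1 *
        Matrix.fromBlocks (1 - (P + U * V)) 0 0 1 * Matrix.fromBlocks 1 0 (-V) 1) *
        (↑h1.unit⁻¹ : Matrix (m ⊕ n) (m ⊕ n) R) =
        Matrix.fromBlocks (1 - (P + U * V)) 0 0 (1 : Matrix n n R) := by
      rw [← mul_assoc, ← mul_assoc, IsUnit.val_inv_mul, one_mul, mul_assoc, IsUnit.mul_val_inv,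
        mul_one]
    rwa [e2] at this
  exact isUnit_of_fromBlocks_one h3

end block

variable {L : Type} (st : L → L → Option (L × L))

/-- span of the words of length between `1` and `d` -/
def Pd (k : Type) [CommRing k] (d : ℕ) : Submodule k (A st k) :=
  Submodule.span k {r | ∃ w : List L, 1 ≤ w.length ∧ w.length ≤ d ∧ A.w st k w = r}

theorem Pd_mono (k : Type) [CommRing k] {d e : ℕ} (h : d ≤ e) : Pd st k d ≤ Pd st k e := by
  refine Submodule.span_mono ?_
  rintro _ ⟨w, h1, h2, rfl⟩
  exact ⟨w, h1, h2.trans h, rfl⟩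

theorem Pd_one_le (k : Type) [CommRing k] : Pd st k 1 ≤ A.deg st k 1 := by
  refine Submodule.span_le.2 ?_
  rintro _ ⟨w, h1, h2, rfl⟩
  exact A.w_mem_deg st k (le_antisymm h2 h1)

/-- splitting off the first letter -/
theorem Pd_succ_split (k : Type) [CommRing k] [Fintype L] {d : ℕ} {b : A st k}
    (h : b ∈ Pd st k (d + 1)) :
    ∃ b0 ∈ Pd st k 1, ∃ c : L → A st k, (∀ a, c a ∈ Pd st k d) ∧
      b = b0 + ∑ a, (A.model st k).f a * c a := by
  classical
  induction h using Submodule.span_induction with
  | mem r hr =>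
    obtain ⟨w, h1, h2, rfl⟩ := hr
    cases w with
    | nil => simp at h1
    | cons a w =>
      by_cases hw : w = []
      · subst hw
        refine ⟨A.w st k [a], Submodule.subset_span ⟨[a], le_rfl, le_rfl, rfl⟩, fun _ => 0,
          fun _ => Submodule.zero_mem _, by simp⟩
      · refine ⟨0, Submodule.zero_mem _, fun a' => if a' = a then A.w st k w else 0, ?_, ?_⟩
        · intro a'
          dsimp only
          split_ifs
          · refine Submodule.subset_span ⟨w, ?_, ?_, rfl⟩
            · exact List.length_pos_iff.2 hw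
            · simpa using h2
          · exact Submodule.zero_mem _
        · rw [zero_add, Finset.sum_eq_single a]
          · simp
          · intro b _ hb; simp [hb]
          · intro h; exact absurd (Finset.mem_univ a) h
  | zero => exact ⟨0, Submodule.zero_mem _, fun _ => 0, fun _ => Submodule.zero_mem _, by simp⟩
  | add r s _ _ hr hs =>
    obtain ⟨b0, hb0, c, hc, rfl⟩ := hr
    obtain ⟨b1, hb1, c', hc', rfl⟩ := hs
    refine ⟨b0 + b1, Submodule.add_mem _ hb0 hb1, fun a => c a + c' a,
      fun a => Submodule.add_mem _ (hc a) (hc' a), ?_⟩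
    simp only [mul_add, Finset.sum_add_distrib]
    abel
  | smul x r _ hr =>
    obtain ⟨b0, hb0, c, hc, rfl⟩ := hr
    refine ⟨x • b0, Submodule.smul_mem _ _ hb0, fun a => x • c a,
      fun a => Submodule.smul_mem _ _ (hc a), ?_⟩
    simp only [mul_smul_comm, smul_add, Finset.smul_sum]

/-- Higman's linearisation. -/
theorem isUnit_of_linear (k : Type) [CommRing k] [Fintype L]
    (H : ∀ (ι : Type) [Fintype ι] [DecidableEq ι] (B : Matrix ι ι (A st k)),
      (∀ i j, B i j ∈ Pd st k 1) → IsUnit (1 - B)) :
    ∀ (d : ℕ) (ι : Type) [Fintype ι] [DecidableEq ι] (B : Matrix ι ι (A st k)),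
      (∀ i j, B i j ∈ Pd st k (d + 1)) → IsUnit (1 - B) := by
  classical
  intro d
  induction d with
  | zero => intro ι _ _ B hB; exact H ι B hB
  | succ d ih =>
    intro ι _ _ B hB
    choose b0 hb0 c hc hbc using fun i j => Pd_succ_split st k (hB i j)
    let U : Matrix ι (L × ι) (A st k) := Matrix.of fun i aj =>
      if i = aj.2 then (A.model st k).f aj.1 else 0
    let V : Matrix (L × ι) ι (A st k) := Matrix.of fun ai j => c ai.2 j ai.1
    have e : B = Matrix.of b0 + U * V := by
      ext i j
      rw [Matrix.add_apply, Matrix.mul_apply, Fintype.sum_prod_type_right]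
      simp only [U, V, Matrix.of_apply]
      rw [Finset.sum_eq_single i]
      · simpa using hbc i j
      · intro x _ hx
        refine Finset.sum_eq_zero fun a _ => ?_
        rw [if_neg (Ne.symm hx), zero_mul]
      · intro h; exact absurd (Finset.mem_univ i) h
    rw [e]
    refine isUnit_of_schur (ih (ι ⊕ (L × ι)) _ ?_)
    rintro (i | i) (j | j)
    · exact Pd_mono st k (by omega) (hb0 i j)
    · simp only [Matrix.fromBlocks_apply₁₂, U, Matrix.of_apply]
      split_ifs
      · rw [← A.w_singleton]
        exact Submodule.subset_span ⟨[j.1], le_rfl, by simp, rfl⟩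
      · exact Submodule.zero_mem _
    · exact hc _ _ _
    · exact Submodule.zero_mem _

/-- reindexing -/
theorem isUnit_reindex {R : Type*} [Ring R] {ι κ : Type*} [Fintype ι] [Fintype κ]
    [DecidableEq ι] [DecidableEq κ] (e : ι ≃ κ) {B : Matrix ι ι R}
    (h : IsUnit (1 - B.reindex e e)) : IsUnit (1 - B) := by
  have h1 : IsUnit ((Matrix.reindexRingEquiv R e) (1 - B)) := by
    rw [map_sub, map_one]
    exact h
  exact (MulEquiv.isUnit_map (Matrix.reindexRingEquiv R e)).1 h1

/-! ### extraction of nilpotence -/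

/-- If `1 - X B` is invertible in polynomial matrices, then `B` is nilpotent. -/
theorem isNilpotent_of_isUnit_poly {R : Type*} [Ring R] {ι : Type*} [Fintype ι] [DecidableEq ι]
    (B : Matrix ι ι R)
    (h : IsUnit (1 - (Matrix.of fun i j => X * C (B i j) : Matrix ι ι R[X]))) :
    IsNilpotent B := by
  obtain ⟨u, hu⟩ := h
  have h1 := u.mul_inv
  rw [hu] at h1
  set V : Matrix ι ι R[X] := ↑u⁻¹ with hV
  have h2 : V = 1 + (Matrix.of fun i j => X * C (B i j) : Matrix ι ι R[X]) * V := by
    rw [sub_mul, one_mul, sub_eq_iff_eq_add] at h1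
    exact h1
  -- coefficients
  let cf : ℕ → Matrix ι ι R := fun n => V.map fun p => p.coeff n
  have hprod : ∀ n, ((Matrix.of fun i j => X * C (B i j) : Matrix ι ι R[X]) * V).map
      (fun p => p.coeff (n + 1)) = B * cf n := by
    intro n
    ext i j
    simp only [Matrix.map_apply, Matrix.mul_apply, Matrix.of_apply, cf]
    rw [Polynomial.finsetSum_coeff]
    refine Finset.sum_congr rfl fun x _ => ?_
    rw [mul_assoc, Polynomial.coeff_X_mul, Polynomial.coeff_C_mul]
  have h0 : cf 0 = 1 := by
    ext i j
    have := congrArg (fun M : Matrix ι ι R[X] => (M i j).coeff 0) h2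
    simp only [Matrix.add_apply, Polynomial.coeff_add, Matrix.mul_apply, Matrix.of_apply,
      Polynomial.finsetSum_coeff, mul_assoc, Polynomial.coeff_X_mul_zero,
      Finset.sum_const_zero, add_zero] at this
    simp only [cf, Matrix.map_apply]
    rw [this]
    by_cases hij : i = j
    · subst hij; simp
    · simp [Matrix.one_apply_ne hij]
  have hs : ∀ n, cf (n + 1) = B * cf n := by
    intro n
    rw [← hprod n]
    ext i j
    have := congrArg (fun M : Matrix ι ι R[X] => (M i j).coeff (n + 1)) h2
    simp only [Matrix.add_apply, Polynomial.coeff_add] at this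
    simp only [cf, Matrix.map_apply]
    rw [this]
    by_cases hij : i = j
    · subst hij; simp [Polynomial.coeff_one]
    · simp [Matrix.one_apply_ne hij]
  have hpow : ∀ n, cf n = B ^ n := by
    intro n
    induction n with
    | zero => rw [h0, pow_zero]
    | succ n ih => rw [hs, ih, pow_succ']
  -- bounded degree
  obtain ⟨N, hN⟩ : ∃ N : ℕ, ∀ i j, (V i j).natDegree < N := by
    refine ⟨(Finset.univ.sup fun ij : ι × ι => (V ij.1 ij.2).natDegree) + 1, fun i j => ?_⟩
    exact Nat.lt_succ_of_le (Finset.le_sup (f := fun ij : ι × ι => (V ij.1 ij.2).natDegree)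
      (Finset.mem_univ (i, j)))
  refine ⟨N, ?_⟩
  rw [← hpow]
  ext i j
  exact Polynomial.coeff_eq_zero_of_natDegree_lt (hN i j)

attribute [local instance] Polynomial.algebra

/-- the model of `st` in polynomials over the algebra -/
noncomputable def polyModel (k : Type) [CommRing k] : Model st (A st k)[X] where
  f a := C ((A.model st k).f a)
  rel x y := by
    rw [← C_mul, (A.model st k).rel]
    cases h : st x y with
    | none => simp
    | some p => simp

/-- `A st k[X] → (A st k)[X]` -/
noncomputable def toPoly (k : Type) [CommRing k] : A st k[X] →ₐ[k[X]] (A st k)[X] :=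
  A.lift (polyModel st k)

theorem toPoly_mapCoeff (k : Type) [CommRing k] (r : A st k) :
    toPoly st k (A.mapCoeff st (C : k →+* k[X]) r) = C r := by
  induction r using A.induction_on with
  | hw w =>
    rw [A.mapCoeff_w]
    unfold toPoly
    rw [A.lift_w]
    induction w with
    | nil => simp
    | cons a w ih => rw [Model.ev_cons, ih, A.w_cons, C_mul]; rfl
  | hadd r s hr hs => rw [map_add, map_add, hr, hs, C_add]
  | hsmul c r hr =>
    rw [A.mapCoeff_smul, map_smul, hr, Algebra.smul_def, Polynomial.algebraMap_def,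
      coe_mapRingHom, Polynomial.map_C, ← C_mul, ← Algebra.smul_def]

theorem toPoly_X_smul (k : Type) [CommRing k] (r : A st k[X]) :
    toPoly st k ((X : k[X]) • r) = X * toPoly st k r := by
  rw [map_smul, Algebra.smul_def, Polynomial.algebraMap_def, coe_mapRingHom, Polynomial.map_X]

theorem mapCoeff_mem_Pd {k k' : Type} [CommRing k] [CommRing k'] (f : k →+* k') {d : ℕ}
    {r : A st k} (h : r ∈ Pd st k d) : A.mapCoeff st f r ∈ Pd st k' d := by
  induction h using Submodule.span_induction with
  | mem r hr =>
    obtain ⟨w, h1, h2, rfl⟩ := hr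
    rw [A.mapCoeff_w]
    exact Submodule.subset_span ⟨w, h1, h2, rfl⟩
  | zero => rw [map_zero]; exact Submodule.zero_mem _
  | add r s _ _ hr hs => rw [map_add]; exact Submodule.add_mem _ hr hs
  | smul c r _ hr => rw [A.mapCoeff_smul]; exact Submodule.smul_mem _ _ hr

theorem exists_mem_Pd (k : Type) [CommRing k] {r : A st k} (h : A.aug st k r = 0) :
    ∃ d, r ∈ Pd st k d := by
  have h' := A.mem_span_of_aug st k h
  clear h
  induction h' using Submodule.span_induction with
  | mem r hr =>
    obtain ⟨w, hw, rfl⟩ := hr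
    exact ⟨w.length, Submodule.subset_span ⟨w, List.length_pos_iff.2 hw, le_rfl, rfl⟩⟩
  | zero => exact ⟨0, Submodule.zero_mem _⟩
  | add r s _ _ hr hs =>
    obtain ⟨d, hd⟩ := hr
    obtain ⟨e, he⟩ := hs
    exact ⟨max d e, Submodule.add_mem _ (Pd_mono st k (le_max_left d e) hd)
      (Pd_mono st k (le_max_right d e) he)⟩
  | smul c r _ hr =>
    obtain ⟨d, hd⟩ := hr
    exact ⟨d, Submodule.smul_mem _ _ hd⟩

/-- The unit form of matrix nilpotence. -/
def QAll : Prop :=
  ∀ (k : Type) [CommRing k] [CharP k 2] (l : ℕ) (B : Matrix (Fin l) (Fin l) (A st k)),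
    (∀ i j, B i j ∈ A.deg st k 1 ⊔ A.deg st k 2) → IsUnit (1 - B)

/-- Unit form for the linear part, all index types. -/
theorem QAll.linear (hQ : QAll st) (k : Type) [CommRing k] [CharP k 2] (ι : Type) [Fintype ι]
    [DecidableEq ι] (B : Matrix ι ι (A st k)) (hB : ∀ i j, B i j ∈ Pd st k 1) :
    IsUnit (1 - B) := by
  refine isUnit_reindex (Fintype.equivFin ι) (hQ k _ _ fun i j => ?_)
  exact Submodule.mem_sup_left (Pd_one_le st k (hB _ _))

/-- LINEARISATION: the unit form gives matrix nilpotence. -/
theorem nil_of_QAll [Fintype L] (hQ : QAll st) (l : ℕ)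
    (B : Matrix (Fin l) (Fin l) (A st (ZMod 2)))
    (hB : ∀ i j, A.aug st (ZMod 2) (B i j) = 0) : IsNilpotent B := by
  choose d hd using fun i j => exists_mem_Pd st (ZMod 2) (hB i j)
  set D := Finset.univ.sup fun ij : Fin l × Fin l => d ij.1 ij.2 with hD
  have hB' : ∀ i j, B i j ∈ Pd st (ZMod 2) D := fun i j =>
    Pd_mono st _ (Finset.le_sup (f := fun ij : Fin l × Fin l => d ij.1 ij.2)
      (Finset.mem_univ (i, j))) (hd i j)
  let B' : Matrix (Fin l) (Fin l) (A st (ZMod 2)[X]) := Matrix.of fun i j =>
    (X : (ZMod 2)[X]) • A.mapCoeff st (C : ZMod 2 →+* (ZMod 2)[X]) (B i j)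
  have hunit : IsUnit (1 - B') := by
    refine isUnit_of_linear st (ZMod 2)[X] (fun ι _ _ B hB => hQ.linear st _ ι B hB) D
      (Fin l) B' fun i j => ?_
    exact Submodule.smul_mem _ _ (Pd_mono st _ (Nat.le_succ D) (mapCoeff_mem_Pd st _ (hB' i j)))
  have h2 : IsUnit ((toPoly st (ZMod 2)).mapMatrix (1 - B')) := hunit.map _
  refine isNilpotent_of_isUnit_poly B ?_
  have e : (toPoly st (ZMod 2)).mapMatrix (1 - B') =
      1 - (Matrix.of fun i j => X * C (B i j) :
        Matrix (Fin l) (Fin l) (A st (ZMod 2))[X]) := by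
    rw [map_sub, map_one]
    congr 1
    ext1 i j
    simp only [AlgHom.mapMatrix_apply, Matrix.map_apply, Matrix.of_apply, B']
    rw [toPoly_X_smul, toPoly_mapCoeff]
  rwa [e] at h2

/-- FINAL FORM of the reduction of S0266. -/
theorem S0266_of_QAll {L : Type} [Fintype L] (st : L → L → Option (L × L))
    (hinf : ∀ n : ℕ, ∃ w : List L, n ≤ w.length ∧ S.of st w ≠ 0) (hQ : QAll st) :
    ∃ (R : Type) (_ : Ring R) (_ : Algebra (ZMod 2) R) (𝒜 : ℕ → Submodule (ZMod 2) R)
      (_ : GradedAlgebra 𝒜),
      Infinite R ∧ 𝒜 0 = 1 ∧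
      (∃ (m : ℕ) (rel : Finset (FreeAlgebra (ZMod 2) (Fin m) × FreeAlgebra (ZMod 2) (Fin m))),
        Nonempty (R ≃ₐ[ZMod 2] RingQuot fun x y : FreeAlgebra (ZMod 2) (Fin m) => (x, y) ∈ rel)) ∧
      ∀ (l : ℕ) (A : Matrix (Fin l) (Fin l) R), (∀ i j, GradedRing.proj 𝒜 0 (A i j) = 0) →
        IsNilpotent A :=
  S0266_of st hinf fun l B hB => nil_of_QAll st hQ l B hB

end Crest.Agent.R176.Gen
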