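import Crest.Agent.R176.Gen.Basic
import Crest.Agent.R176.QAlg206

/-!
R176 part A, block G1 (helper206): the universal monoid with zero `S st`: every element is `0` or
a word; lift of a model; equality of words = the explicit equivalence `QAlg206.WEq`; length.
-/

set_option autoImplicit false

namespace Crest.Agent.R176.Gen

open Crest.Agent.R176.QAlg206 (WEq IsZ)

section S

variable {L : Type} (st : L → L → Option (L × L))

theorem S.of_nil : S.of st [] = 1 := by
  show S.mk st _ = 1
  exact map_one (S.mk st)

theorem S.of_append (u v : List L) : S.of st (u ++ v) = S.of st u * S.of st v := by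
  show S.mk st _ = S.mk st _ * S.mk st _
  rw [← map_mul]
  rfl

theorem S.of_cons (a : L) (v : List L) : S.of st (a :: v) = S.of st [a] * S.of st v :=
  S.of_append st [a] v


/-- every element of `S` is zero or a word -/
theorem S.cases (s : S st) : s = 0 ∨ ∃ w : List L, s = S.of st w := by
  induction s using Con.induction_on with
  | H a =>
    induction a using WithZero.recZeroCoe with
    | zero => left; rfl
    | coe a => right; exact ⟨a.toList, rfl⟩

theorem S.rel_some {x y : L} {p : L × L} (h : st x y = some p) :
    S.of st [x, y] = S.of st [p.1, p.2] := by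
  show S.mk st _ = S.mk st _
  exact (Con.eq (SCon st)).2 (ConGen.Rel.of _ _ (SRel.some x y p h))

theorem S.rel_none {x y : L} (h : st x y = none) :
    S.of st [x, y] = 0 := by
  show S.mk st _ = S.mk st 0
  exact (Con.eq (SCon st)).2 (ConGen.Rel.of _ _ (SRel.none x y h))

/-- the letters in `S` form a model -/
def S.model : Model st (S st) where
  f a := S.of st [a]
  rel x y := by
    rw [← S.of_append]
    cases h : st x y with
    | none => exact S.rel_none st h
    | some p =>
      show _ = S.of st [p.1] * S.of st [p.2]
      rw [← S.of_append]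
      exact S.rel_some st h

@[simp] theorem S.model_ev (w : List L) : (S.model st).ev w = S.of st w := by
  induction w with
  | nil => exact (S.of_nil st).symm
  | cons a w ih => rw [Model.ev_cons, ih, S.of_cons]; rfl

variable {st} {M : Type*} [MonoidWithZero M]

/-- auxiliary -/
def S.liftAux (m : Model st M) : WithZero (FreeMonoid L) →* M :=
  (WithZero.lift' (FreeMonoid.lift m.f) : WithZero (FreeMonoid L) →*₀ M).toMonoidHom

theorem S.liftAux_coe (m : Model st M) (w : FreeMonoid L) :
    S.liftAux m (w : WithZero (FreeMonoid L)) = FreeMonoid.lift m.f w :=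
  WithZero.lift'_coe _ _

theorem S.liftAux_zero (m : Model st M) : S.liftAux m 0 = 0 :=
  map_zero (WithZero.lift' (FreeMonoid.lift m.f) : WithZero (FreeMonoid L) →*₀ M)

theorem S.liftAux_le (m : Model st M) : SCon st ≤ Con.ker (S.liftAux m) := by
  refine Con.conGen_le.2 ?_
  intro a b h
  cases h with
  | some x y p h =>
    rw [Con.ker_rel, S.liftAux_coe, S.liftAux_coe, map_mul, map_mul]
    simp only [FreeMonoid.lift_eval_of]
    exact m.rel_some h
  | none x y h =>
    rw [Con.ker_rel, S.liftAux_coe, S.liftAux_zero, map_mul]
    simp only [FreeMonoid.lift_eval_of]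
    exact m.rel_none h

/-- A model extends to `S`. -/
def S.lift (m : Model st M) : S st →*₀ M where
  toFun := Con.lift (SCon st) (S.liftAux m) (S.liftAux_le m)
  map_zero' := S.liftAux_zero m
  map_one' := map_one (Con.lift (SCon st) (S.liftAux m) (S.liftAux_le m))
  map_mul' := map_mul (Con.lift (SCon st) (S.liftAux m) (S.liftAux_le m))

@[simp] theorem S.lift_of (m : Model st M) (w : List L) : S.lift m (S.of st w) = m.ev w := by
  show S.liftAux m ((FreeMonoid.ofList w : FreeMonoid L) : WithZero (FreeMonoid L)) = _
  rw [S.liftAux_coe, FreeMonoid.lift_ofList]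
  rfl

/-- word or zero -/
def S.of0 (st : L → L → Option (L × L)) (w : Option (List L)) : S st := w.elim 0 (S.of st)

theorem S.of0_eq_of_WEq {u v : Option (List L)} (h : WEq st u v) :
    S.of0 st u = S.of0 st v := by
  refine WEq.inv (S.of0 st) ?_ h
  intro u v h
  cases h with
  | @move p s a b a' b' h =>
    show S.of st _ = S.of st _
    rw [S.of_append, S.of_append, show a :: b :: s = [a, b] ++ s from rfl,
      show a' :: b' :: s = [a', b'] ++ s from rfl, S.of_append, S.of_append, S.rel_some st h]
  | @zero p s a b h =>
    show S.of st _ = 0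
    rw [S.of_append, show a :: b :: s = [a, b] ++ s from rfl, S.of_append, S.rel_none st h,
      zero_mul, mul_zero]

end S

section WEq

variable {L : Type} {st : L → L → Option (L × L)}

/-- the model of `st` in the algebra `QA` -/
noncomputable def modelQA (k : Type) [CommRing k] : Model st (QAlg206.QA st k) where
  f a := QAlg206.x st k a
  rel x y := by
    cases h : st x y with
    | none => exact QAlg206.x_mul_x_of_none st k h
    | some p => exact QAlg206.x_mul_x_of_some st k h

theorem modelQA_ev (k : Type) [CommRing k] (w : List L) :
    (modelQA (st := st) k).ev w = QAlg206.word st k w := rfl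

/-- equality of words in `S` is the explicit equivalence -/
theorem S.of_eq_of_iff {u v : List L} :
    S.of st u = S.of st v ↔ WEq st (some u) (some v) := by
  constructor
  · intro h
    have := congrArg (S.lift (modelQA (st := st) ℤ)) h
    rw [S.lift_of, S.lift_of, modelQA_ev, modelQA_ev] at this
    exact (QAlg206.word_eq_iff st ℤ).1 this
  · intro h
    exact S.of0_eq_of_WEq h

theorem S.of_eq_zero_iff {w : List L} : S.of st w = 0 ↔ IsZ st w := by
  constructor
  · intro h
    have := congrArg (S.lift (modelQA (st := st) ℤ)) h
    rw [S.lift_of, modelQA_ev, map_zero] at this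
    exact (QAlg206.word_eq_zero_iff st ℤ).1 this
  · intro h
    exact S.of0_eq_of_WEq h

/-- length is well defined on nonzero words -/
theorem S.length_eq {u v : List L} (h : S.of st u = S.of st v) (hu : S.of st u ≠ 0) :
    u.length = v.length :=
  (S.of_eq_of_iff.1 h).length_eq fun hz => hu (S.of_eq_zero_iff.2 hz)

/-- a subword of a nonzero word is nonzero -/
theorem S.of_ne_zero_of_append {p w s : List L} (h : S.of st (p ++ w ++ s) ≠ 0) :
    S.of st w ≠ 0 := by
  intro e
  apply h
  rw [S.of_append, S.of_append, e, mul_zero, zero_mul]

/-- Invariant functions. -/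
theorem S.inv {C : Type*} (f : List L → Option C)
    (hm : ∀ (p s : List L) (a b a' b' : L), st a b = some (a', b') →
      f (p ++ a :: b :: s) = f (p ++ a' :: b' :: s))
    (hz : ∀ (p s : List L) (a b : L), st a b = none → f (p ++ a :: b :: s) = none)
    {u v : List L} (h : S.of st u = S.of st v) : f u = f v := by
  simpa using WEq.inv' f hm hz (S.of_eq_of_iff.1 h)


end WEq

end Crest.Agent.R176.Gen
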